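import Vale.Agent.P177.Rho.NatChi
import Vale.Agent.P177.Full.Adm
import Vale.Agent.P177.Full.FlagP
import Vale.Agent.P177.Nat.ExNatZ
import Vale.Agent.P177.Nat.ON
import Vale.Agent.P177.Lev.LenW

/-!
P177, block RHO: the Euler characteristic of the perfect ideals of the package.
-/

namespace Vale.Agent.P177.Full.Pkg

open Vale.Agent.P202.Mix Vale.Agent.P177.Lev Vale.Agent.P177.SL Vale.Agent.P177.KG
  Vale.Agent.P177.KM Vale.Agent.P177.PI Vale.Agent.P177.CN Vale.Agent.P177.MN Vale.Agent.P177.Rho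
  WittVector Polynomial Filter Function
open scoped ENNReal

universe u

variable {p : ℕ} [Fact p.Prime] {k : Type u} [Field k] [CharP k p] {r : ℕ}
variable {Λ : Type u} [CommRing Λ] [IsLocalRing Λ] {ψ : Λ →+* WittVector p (Rp p k r)}
variable {Ω : Type u} [Field Ω] [Algebra Λ Ω] {s : ℕ} {b : Fin s → Ω} {F G : Fin s → Λ[X]}
    {D : ℕ} {ε : ℝ≥0∞} {Φ : ℕ → ℕ} (K : Pkg ψ b F G D ε Φ)

theorem η_pow_notMem (hε : ε ≠ 0) (n : ℕ) : K.η ^ n ∉ Ideal.span {tC p k r K.C} := by
  intro h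
  obtain ⟨y, hy⟩ := Ideal.mem_span_singleton'.1 h
  have h1 : K.mass.len (WittVector p K.C ⧸ vW p k r K.C) = 0 := by
    refine K.mass_eq_zero n _ fun x => ?_
    obtain ⟨w, rfl⟩ := Ideal.Quotient.mk_surjective x
    change Ideal.Quotient.mk _ (teichmuller p K.η ^ n * w) = 0
    rw [Ideal.Quotient.eq_zero_iff_mem, ← map_pow, ← hy, map_mul (teichmuller p), mul_assoc,
      mul_comm (teichmuller p (tC p k r K.C)), ← mul_assoc]
    refine Ideal.mul_mem_left _ _ (Ideal.subset_span (Set.mem_insert_of_mem _ ⟨0, rfl⟩))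
  exact hε (le_antisymm (h1 ▸ K.le_mass_vW) bot_le)

/-- the ring `C'` exists. -/
theorem nonempty_natZ (hε : ε ≠ 0) : Nonempty (NatZ p K.C (tC p k r K.C) K.η) :=
  exists_natZ p K.t_reg (K.η_pow_notMem hε 3)

/-- the list of the Teichmueller representatives of the variables. -/
noncomputable abbrev xs : List (WittVector p K.C) :=
  List.ofFn fun l => teichmuller p (xC p k r K.C l)

theorem take_xs (i : ℕ) (hi : i < r + 1) : Ideal.ofList (K.xs.take i) =
    Ideal.span ((fun l => teichmuller p (xC p k r K.C l)) '' {l | l < ⟨i, hi⟩}) := by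
  rw [Ideal.ofList]
  congr 1
  ext v
  rw [Set.mem_ofPred_eq, List.mem_take_iff_getElem]
  constructor
  · rintro ⟨j, hj, rfl⟩
    rw [List.length_ofFn] at hj
    refine ⟨⟨j, by omega⟩, ?_, ?_⟩
    · exact Fin.mk_lt_mk.2 (by omega)
    · rw [List.getElem_ofFn]
  · rintro ⟨l, hl, rfl⟩
    refine ⟨l, ?_, ?_⟩
    · rw [List.length_ofFn]
      have h1 : l < (⟨i, hi⟩ : Fin (r + 1)) := hl
      rw [Fin.lt_def] at h1
      have := l.2
      simp only at h1
      omega
    · exact List.getElem_ofFn _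

theorem weaklyRegular_xs : letI := algW p K.C
    RingTheory.Sequence.IsWeaklyRegular (R := WittVector p K.C) K.C K.xs := by
  let _ := algW p K.C
  refine ⟨fun i hi => ?_⟩
  have hi' : i < r + 1 := by
    have := hi
    rwa [List.length_ofFn] at this
  rw [isSMulRegular_on_quot_iff_lsmul_comap_le]
  intro y hy
  rw [Submodule.mem_comap] at hy
  have e : ∀ c : K.C, c ∈ (Ideal.ofList (K.xs.take i) • (⊤ : Submodule (WittVector p K.C) K.C)) ↔
      c ∈ Ideal.span ((fun l => xC p k r K.C l) '' {l | l < ⟨i, hi'⟩}) := by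
    intro c
    rw [Ideal.smul_top_eq_map, take_xs K i hi', Ideal.map_span, Set.image_image]
    have h2 : (fun l => algebraMap (WittVector p K.C) K.C (teichmuller p (xC p k r K.C l))) =
        fun l => xC p k r K.C l := by
      funext l
      exact teichmuller_coeff_zero p _
    rw [h2]
    exact Iff.rfl
  rw [e] at hy ⊢
  refine K.regular ⟨i, hi'⟩ y ?_
  have h3 : LinearMap.lsmul (WittVector p K.C) K.C K.xs[i] y = xC p k r K.C ⟨i, hi'⟩ * y := by
    change K.xs[i] • y = _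
    rw [algW_smul_def, List.getElem_ofFn, teichmuller_coeff_zero]
  rwa [h3] at hy

theorem len_KC_C_succ (i : ℕ) : letI := algW p K.C
    K.mass.len ((KC (R := WittVector p K.C) K.C K.xs).H (i + 1)) = 0 := by
  let _ := algW p K.C
  have := KC_H_succ_subsingleton K.xs K.C K.weaklyRegular_xs i
  exact SL.len_subsingleton _

theorem len_KC_C_zero : letI := algW p K.C
    K.mass.len ((KC (R := WittVector p K.C) K.C K.xs).H 0) =
      K.mass.len (WittVector p K.C ⧸ vW p k r K.C) := by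
  let _ := algW p K.C
  let g : WittVector p K.C →ₗ[WittVector p K.C] (KC (R := WittVector p K.C) K.C K.xs).H 0 :=
    u0 K.C K.xs ∘ₗ Algebra.linearMap (WittVector p K.C) K.C
  have hg : Function.Surjective g := by
    refine (u0_surjective K.C K.xs).comp fun c => ?_
    exact ⟨teichmuller p c, teichmuller_coeff_zero p c⟩
  have hk : LinearMap.ker g = vW p k r K.C := by
    ext w
    rw [LinearMap.mem_ker, mem_vW_iff]
    change w.coeff 0 ∈ LinearMap.ker (u0 K.C K.xs) ↔ _
    rw [ker_u0, Ideal.smul_top_eq_map]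
    change w.coeff 0 ∈ (Ideal.ofList K.xs).map (algebraMap (WittVector p K.C) K.C) ↔ _
    have h1 : (Ideal.ofList K.xs).map (algebraMap (WittVector p K.C) K.C) =
        UL.vI p k r K.C := by
      rw [Ideal.ofList, Ideal.map_span, UL.vI]
      congr 1
      ext c
      constructor
      · rintro ⟨v, hv, rfl⟩
        obtain ⟨l, rfl⟩ := (List.mem_ofFn' _ _).1 hv
        exact ⟨l, (teichmuller_coeff_zero p _).symm⟩
      · rintro ⟨l, rfl⟩
        exact ⟨_, (List.mem_ofFn' _ _).2 ⟨l, rfl⟩, teichmuller_coeff_zero p _⟩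
    rw [h1]
  rw [← len_congr K.mass (g.quotKerEquivOfSurjective hg),
    len_congr K.mass (Submodule.quotEquivOfEq _ _ hk)]

theorem kchi_C (n : ℕ) : letI := algW p K.C
    kchi K.mass (KC (R := WittVector p K.C) K.C K.xs) (n + 1) =
      (K.mass.len (WittVector p K.C ⧸ vW p k r K.C)).toReal := by
  let _ := algW p K.C
  rw [kchi, Finset.sum_range_succ', Finset.sum_eq_zero, len_KC_C_zero K]
  · simp
  · intro i _
    rw [K.len_KC_C_succ]
    simp

theorem len_KC_C_ne_top (i : ℕ) : letI := algW p K.C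
    K.mass.len ((KC (R := WittVector p K.C) K.C K.xs).H i) ≠ ⊤ := by
  cases i with
  | zero => rw [len_KC_C_zero K]; exact K.mass_ne_top
  | succ i => rw [K.len_KC_C_succ]; exact ENNReal.zero_ne_top

section gen

/-- replace the first components by the whole rings. -/
noncomputable def Jp (Je : ∀ e, Ideal (K.Ce e)) (e0 : ℕ) (e : ULift.{u} ℕ) : Ideal (K.Ce e) :=
  if e0 ≤ e.down then Je e else ⊤

theorem SP_Jp (Je : ∀ e, Ideal (K.Ce e)) (hJe : ∀ e, SP p (Je e)) (e0 : ℕ)
    (e : ULift.{u} ℕ) : SP p (K.Jp Je e0 e) := by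
  unfold Jp
  split_ifs
  · exact hJe e
  · exact SP_top p

theorem le_Jp (Je : ∀ e, Ideal (K.Ce e)) (e0 : ℕ) : Ideal.pi Je ≤ Ideal.pi (K.Jp Je e0) := by
  intro x hx e
  change x e ∈ K.Jp Je e0 e
  unfold Jp
  split_ifs
  · exact hx e
  · exact Submodule.mem_top

/-- the first levels are invisible -/
theorem len_KC_Jp (Je : ∀ e, Ideal (K.Ce e)) (e0 : ℕ) (i : ℕ) : letI := algW p K.C
    K.mass.len ((KC (R := WittVector p K.C) (Ideal.pi Je : Ideal K.C) K.xs).H i) =
      K.mass.len ((KC (R := WittVector p K.C) (Ideal.pi (K.Jp Je e0) : Ideal K.C) K.xs).H i) := by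
  let _ := algW p K.C
  let f : (Ideal.pi Je : Ideal K.C) →ₗ[WittVector p K.C] (Ideal.pi (K.Jp Je e0) : Ideal K.C) :=
    (Submodule.inclusion (K.le_Jp Je e0)).restrictScalars (WittVector p K.C)
  refine KC_len_eq_of_inj (ALen.of K.mass) f (Submodule.inclusion_injective (K.le_Jp Je e0)) ?_ K.xs i
  refine K.kil_tl e0 _ fun m => ?_
  obtain ⟨x, rfl⟩ := Submodule.mkQ_surjective _ m
  rw [← map_smul, Submodule.mkQ_apply, Submodule.Quotient.mk_eq_zero]
  refine ⟨⟨K.tl e0 * x.1, fun e => ?_⟩, Subtype.ext ?_⟩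
  · change K.tl e0 e * x.1 e ∈ Je e
    have h1 : x.1 e ∈ K.Jp Je e0 e := x.2 e
    unfold tl
    unfold Jp at h1
    split_ifs with h
    · rw [if_pos h] at h1
      rw [one_mul]
      exact h1
    · rw [zero_mul]
      exact zero_mem _
  · change K.tl e0 * x.1 = (teichmuller p (K.tl e0)).coeff 0 * x.1
    rw [teichmuller_coeff_zero]

theorem mem_xiM_of_le {C : Type u} [CommRing C] [Algebra (Rp p k r) C] {m M : ℕ} (h : m ≤ M)
    {x : WittVector p C} (hx : x ∈ xiM p k r C M) : x ∈ xiM p k r C m := by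
  obtain ⟨a, c, rfl⟩ := mem_xiM_iff.1 hx
  exact mem_xiM_iff.2 ⟨a, c * (p : WittVector p C) ^ (M - m), by
    rw [mul_assoc c, ← pow_add, Nat.sub_add_cancel h]⟩

/-- **RHO for a product of `SP`-ideals** -/
theorem kchi_pi [IsDomain Λ] [IsNoetherianRing Λ] {u' : Fin r → Λ}
    (hmax : IsLocalRing.maximalIdeal Λ = Ideal.span (insert (p : Λ) (Set.range u')))
    (hpr : Prime (p : Λ)) (hψ : ∀ i, ψ (u' i) = teichmuller p (xp p k r i.succ))
    (hε : ε ≠ 0) (Je : ∀ e, Ideal (K.Ce e)) (hJe : ∀ e, SP p (Je e)) (γ : Λ) (hγ : γ ≠ 0)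
    (z : WittVector p K.C) (hz : z ∈ WI p (Ideal.pi Je)) (n : ULift.{u} ℕ → ℕ)
    (hn : ∀ M, ∃ e0 : ℕ, ∀ e : ULift.{u} ℕ, e0 ≤ e.down → M ≤ n e)
    (hzz : teichmuller p K.η * laW ψ K.C γ - z ∈ K.xiP n)
    (hfin : letI := algW p K.C
      ∀ i, K.mass.len ((KC (R := WittVector p K.C) (Ideal.pi Je : Ideal K.C) K.xs).H i) ≠ ⊤)
    (m : ℕ) (hm : r + 1 < m) : letI := algW p K.C
    kchi K.mass (KC (R := WittVector p K.C) (Ideal.pi Je : Ideal K.C) K.xs) (m + 1) =
      (K.mass.len (WittVector p K.C ⧸ vW p k r K.C)).toReal := by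
  let _ := algW p K.C
  obtain ⟨Z⟩ := K.nonempty_natZ hε
  obtain ⟨a, ha⟩ := kchi_nat (p := p) u' hmax hpr γ hγ
  obtain ⟨e0, he0⟩ := hn (2 + a)
  have hlaW : ∀ i, laW ψ K.C (u' i) = teichmuller p (xC p k r K.C i.succ) := by
    intro i
    change WittVector.map _ (ψ (u' i)) = _
    rw [hψ, WittVector.map_teichmuller]
  -- the ideal `J⁺` and the element `z⁺`
  have hSP := K.SP_Jp Je hJe e0
  let zp : WittVector p K.C := teichmuller p (K.tl e0) * z +
    teichmuller p (1 - K.tl e0) * (teichmuller p K.η * laW ψ K.C γ)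
  have htl : ∀ e, e0 ≤ e.down → K.tl e0 e = 1 := fun e h => if_pos h
  have htl' : ∀ e, ¬ e0 ≤ e.down → K.tl e0 e = 0 := fun e h => if_neg h
  have hzp : ∀ e, e0 ≤ e.down → K.pr e zp = K.pr e z := by
    intro e h
    rw [map_add, map_mul, map_mul, pr_te, pr_te, Pi.sub_apply, htl e h, Pi.one_apply, sub_self,
      map_one, WittVector.teichmuller_zero, one_mul, zero_mul, add_zero]
  have hzp' : ∀ e, ¬ e0 ≤ e.down → K.pr e zp = K.pr e (teichmuller p K.η * laW ψ K.C γ) := by
    intro e h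
    rw [map_add, map_mul, map_mul _ (teichmuller p (1 - K.tl e0)), pr_te, pr_te, Pi.sub_apply,
      htl' e h, Pi.one_apply, sub_zero, map_one, WittVector.teichmuller_zero, one_mul, zero_mul,
      zero_add]
  have h1 : zp ∈ WI p (Ideal.pi (K.Jp Je e0)) := by
    rw [mem_WI_pi p fun e => (hSP e).isPerf]
    intro e
    by_cases h : e0 ≤ e.down
    · have h2 := (mem_WI_pi p fun e => (hJe e).isPerf).1 hz e
      change K.pr e zp ∈ WI p (K.Jp Je e0 e)
      rw [hzp e h, Jp, if_pos h]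
      exact h2
    · change K.pr e zp ∈ WI p (K.Jp Je e0 e)
      rw [Jp, if_neg h]
      exact NatR.mem_WI_top p _
  have h2 : teichmuller p K.η * laW ψ K.C γ - zp ∈ XI p (xC p k r K.C 0) (2 + a) := by
    have h3 : teichmuller p K.η * laW ψ K.C γ - zp ∈ K.xiP fun _ => 2 + a := by
      rw [mem_xiP]
      intro e
      by_cases h : e0 ≤ e.down
      · rw [map_sub, hzp e h, ← map_sub]
        exact mem_xiM_of_le (he0 e h) (K.mem_xiP.1 hzz e)
      · rw [map_sub, hzp' e h, sub_self]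
        exact zero_mem _
    have h4 := K.xiP_le_xiM (m := 2 + a) (fun _ => le_rfl) h3
    rw [← XI_eq_xiM] at h4
    exact h4
  have h5 := ha (laW ψ K.C) (xC p k r K.C) hlaW K.t_reg K.η Z K.mass K.kil_η (2 + a) (by omega)
    (Ideal.pi (K.Jp Je e0)) (SP_pi hSP) zp h1 h2
    (fun i => by rw [← K.len_KC_Jp Je e0 i]; exact hfin i) K.len_KC_C_ne_top m hm
  have h6 : kchi K.mass (KC (R := WittVector p K.C) (Ideal.pi Je : Ideal K.C) K.xs) (m + 1) =
      kchi K.mass (KC (R := WittVector p K.C) (Ideal.pi (K.Jp Je e0) : Ideal K.C) K.xs)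
        (m + 1) := kchi_congr K.mass (K.len_KC_Jp Je e0) _
  change kchi K.mass (KC (R := WittVector p K.C) (Ideal.pi Je : Ideal K.C) K.xs) (m + 1) = _
  rw [h6]
  exact h5.trans (K.kchi_C m)

end gen

end Vale.Agent.P177.Full.Pkg
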