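import Vale.Agent.P177.Rho.Main
import Vale.Agent.P177.Full.MainB

/-!
P177, block RHO: the number attached to the residue field, for the data `Core`.
-/

namespace Vale.Agent.P177.Full

open Vale.Agent.P202.Mix Vale.Agent.P177.Lev Vale.Agent.P177.SL Vale.Agent.P177.KG
  Vale.Agent.P177.KM Vale.Agent.P177.PI Vale.Agent.P177.CN Vale.Agent.P177.MN Vale.Agent.P177.Rho
  Vale.Agent.P177.Flag WittVector Filter Function IsLocalRing
open scoped ENNReal

universe u

namespace Pkg

variable {p : ℕ} [Fact p.Prime] {k : Type u} [Field k] [CharP k p] {r : ℕ}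
variable {Λ : Type u} [CommRing Λ] [IsLocalRing Λ] {ψ : Λ →+* WittVector p (Rp p k r)}
variable {Ω : Type u} [Field Ω] [Algebra Λ Ω] {s : ℕ} {b : Fin s → Ω}
    {F G : Fin s → Polynomial Λ}
    {D : ℕ} {ε : ℝ≥0∞} {Φ : ℕ → ℕ}

/-- a nonzero element of `Λ` is a multiple of a monomial in the `c_l`. -/
theorem exists_rel_mono [IsDomain Λ] (hcof : ∀ l, b l ≠ 0 → ∃ (f : Polynomial Λ) (γ : Λ), γ ≠ 0 ∧
      b l * Polynomial.aeval (b l) f = algebraMap Λ Ω γ) {n : ℕ} (idx : Fin n → Fin s)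
    (hidx : ∀ i, b (idx i) ≠ 0) (e : Fin n → ℕ) :
    ∃ γ : Λ, γ ≠ 0 ∧ ∀ K : Pkg ψ b F G D ε Φ, ∃ w : WittVector p K.C,
      ∀ (N : ULift.{u} ℕ → ℕ), (∀ i, p ^ K.j i * N i ≤ K.I i + 1) →
        teichmuller p K.η * laW ψ K.C γ - teichmuller p (∏ i, K.c (idx i) ^ e i) * w ∈
          K.xiP N := by
  choose f g hg hfg using fun i => hcof (idx i) (hidx i)
  refine ⟨∏ i, g i ^ e i, Finset.prod_ne_zero_iff.2 fun i _ => pow_ne_zero _ (hg i), fun K => ?_⟩
  refine ⟨teichmuller p K.η * ∏ i, Polynomial.eval₂ (laW ψ K.C) (teichmuller p (K.c (idx i)))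
    (f i) ^ e i, fun N hN => ?_⟩
  let P : MvPolynomial (Fin s) Λ := MvPolynomial.C (∏ i, g i ^ e i) -
    ∏ i, (MvPolynomial.X (idx i) * Polynomial.aeval (MvPolynomial.X (idx i)) (f i)) ^ e i
  have h1 : MvPolynomial.aeval b P = 0 := by
    rw [map_sub, MvPolynomial.aeval_C, map_prod (algebraMap Λ Ω), map_prod (MvPolynomial.aeval (R := Λ) b),
      sub_eq_zero]
    refine Finset.prod_congr rfl fun i _ => ?_
    rw [map_pow, map_pow, map_mul, MvPolynomial.aeval_X, ← hfg i]
    congr 2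
    rw [← Polynomial.aeval_algHom_apply, MvPolynomial.aeval_X]
  have h2 := K.η_rel hN P h1
  have h3 : MvPolynomial.eval₂ (laW ψ K.C) (fun l => teichmuller p (K.c l)) P =
      laW ψ K.C (∏ i, g i ^ e i) - teichmuller p (∏ i, K.c (idx i) ^ e i) *
        ∏ i, Polynomial.eval₂ (laW ψ K.C) (teichmuller p (K.c (idx i))) (f i) ^ e i := by
    let ev : MvPolynomial (Fin s) Λ →+* WittVector p K.C :=
      MvPolynomial.eval₂Hom (laW ψ K.C) fun l => teichmuller p (K.c l)
    change ev P = _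
    rw [map_sub, map_prod ev, map_prod (teichmuller p (R := K.C)), ← Finset.prod_mul_distrib]
    congr 1
    · exact MvPolynomial.eval₂_C _ _ _
    · refine Finset.prod_congr rfl fun i _ => ?_
      rw [map_pow, map_mul, mul_pow, map_pow]
      congr 2
      · exact MvPolynomial.eval₂_X _ _ _
      · rw [Polynomial.aeval_def, Polynomial.hom_eval₂]
        congr 1
        · ext a : 1
          exact MvPolynomial.eval₂_C _ _ _
        · exact MvPolynomial.eval₂_X _ _ _
  rw [h3] at h2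
  have h4 : teichmuller p K.η * laW ψ K.C (∏ i, g i ^ e i) -
      teichmuller p (∏ i, K.c (idx i) ^ e i) * (teichmuller p K.η *
        ∏ i, Polynomial.eval₂ (laW ψ K.C) (teichmuller p (K.c (idx i))) (f i) ^ e i) =
      teichmuller p K.η * (laW ψ K.C (∏ i, g i ^ e i) - teichmuller p (∏ i, K.c (idx i) ^ e i) *
        ∏ i, Polynomial.eval₂ (laW ψ K.C) (teichmuller p (K.c (idx i))) (f i) ^ e i) := by
    ring
  rw [h4]
  exact h2

/-- finiteness and Euler characteristic for the ideals of the flag family -/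
theorem kchi_J [IsDomain Λ] [IsNoetherianRing Λ] {u' : Fin r → Λ}
    {red : Λ →+* R0 k r ⧸ Ideal.span {(MvPowerSeries.X 0 : R0 k r)}}
    (K : Pkg ψ b F G D ε Φ) (hb : IsBase p k r Λ u' ψ red)
    (hmax : maximalIdeal Λ = Ideal.span (insert (p : Λ) (Set.range u')))
    (hpr : Prime (p : Λ)) (hΦ : ∀ j, j * (p ^ j * p ^ j) ≤ Φ j) (hε : ε ≠ 0)
    (hcof : ∀ l, b l ≠ 0 → ∃ (f : Polynomial Λ) (γ : Λ), γ ≠ 0 ∧
      b l * Polynomial.aeval (b l) f = algebraMap Λ Ω γ) {n : ℕ}
    (ix : ∀ j, (Fin j → Fin n) → Fin s) (hix : ∀ i : Fin n, ∃ t, b (ix ((i : ℕ) + 1) t) ≠ 0)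
    (z : Fin n → ℤ) : letI := algW p K.C
    (∀ i, K.mass.len ((KC (R := WittVector p K.C) (K.J n ix z) K.xs).H i) ≠ ⊤) ∧
      ∀ m, r + 1 < m → kchi K.mass (KC (R := WittVector p K.C) (K.J n ix z) K.xs) (m + 1) =
        (K.mass.len (WittVector p K.C ⧸ vW p k r K.C)).toReal := by
  let _ := algW p K.C
  have hfin : ∀ i, K.mass.len ((KC (R := WittVector p K.C) (K.J n ix z) K.xs).H i) ≠ ⊤ :=
    fun i => ne_of_lt (K.KC_lt_top hb hΦ
      (fun (i : Fin n) (t : Fin ((i : ℕ) + 1) → Fin n) => ix ((i : ℕ) + 1) t) hix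
      (fun i => (z i).toNat) i)
  refine ⟨hfin, fun m hm => ?_⟩
  choose t ht using hix
  obtain ⟨γ, hγ, h⟩ := exists_rel_mono (ψ := ψ) (F := F) (G := G) (D := D) (ε := ε) (Φ := Φ)
    hcof (fun i : Fin n => ix ((i : ℕ) + 1) (t i)) ht (fun i => (z i).toNat)
  obtain ⟨w, hw⟩ := h K
  have h2 := hw K.j (fun i => by
    have h3 := K.le_I i
    have h4 := hΦ (K.j i)
    have h5 : 0 < p ^ K.j i := pow_pos (Fact.out : p.Prime).pos _
    have h6 : p ^ K.j i * K.j i ≤ K.j i * (p ^ K.j i * p ^ K.j i) := by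
      rw [mul_comm]
      exact Nat.mul_le_mul_left _ (Nat.le_mul_of_pos_left _ h5)
    omega)
  refine K.kchi_pi hmax hpr hb.psi_u hε (fun e => JJ p (K.IJ n ix e) z)
    (fun e => SP_perfHull _) γ hγ _ ?_ K.j (fun M => ⟨M, fun e he => ?_⟩) h2 hfin m hm
  · refine Ideal.mul_mem_right _ _ (te_mem_WI p fun e => ?_)
    rw [Finset.prod_apply]
    refine Perf.le_perfHull ?_
    refine Ideal.prod_mem_prod fun i _ => ?_
    have h3 : K.c (ix ((i : ℕ) + 1) (t i)) e ∈ K.IJ n ix e i := Ideal.subset_span ⟨t i, rfl⟩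
    exact Ideal.pow_mem_pow h3 _
  · have := K.le_j e
    omega

/-- Koszul homology of `WI J / (p - [t])` for `(p, [u])`. -/
theorem len_KC_JSh (K : Pkg ψ b F G D ε Φ) {J : Ideal K.C} (hJ : IsPerf p J) (i : ℕ) :
    letI := algW p K.C
    K.mass.len ((KC (R := WittVector p K.C)
      (Ap.JSh (Ap.xiW p (tC p k r K.C)) (WI p J)) ((p : WittVector p K.C) ::
        List.ofFn fun l : Fin r => teichmuller p (xC p k r K.C l.succ))).H i) =
      K.mass.len ((KC (R := WittVector p K.C) J K.xs).H i) := by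
  let _ := algW p K.C
  have hxs : K.xs = teichmuller p (xC p k r K.C 0) ::
      List.ofFn fun l : Fin r => teichmuller p (xC p k r K.C l.succ) := List.ofFn_succ
  rw [hxs]
  refine KC_len_WIE (p := p) (R := WittVector p K.C) (C := K.C) (ALen.of K.mass)
    (fun _ => rfl) hJ (teichmuller p (xC p k r K.C 0)) ?_ (Ap.xiW p (tC p k r K.C)) (-1) ?_
    (Submodule.mkQ _) (Submodule.mkQ_surjective _) (fun x => Ap.JSh.mk_eq_zero_iff x) _ i
  · have h1 : algebraMap (WittVector p K.C) K.C (teichmuller p (xC p k r K.C 0)) =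
        xC p k r K.C 0 := teichmuller_coeff_zero p _
    rw [h1]
    exact K.t_reg
  · have h1 : algebraMap (WittVector p K.C) K.C (teichmuller p (xC p k r K.C 0)) =
        xC p k r K.C 0 := teichmuller_coeff_zero p _
    rw [h1]
    change constantCoeff ((p : WittVector p K.C) - teichmuller p (xC p k r K.C 0)) = _
    rw [map_sub, map_natCast, CharP.cast_eq_zero, zero_sub]
    change -(teichmuller p (xC p k r K.C 0)).coeff 0 = _
    rw [teichmuller_coeff_zero]
    simp

end Pkg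

namespace Core

variable {p : ℕ} [Fact p.Prime] {R : Type u} [CommRing R] [IsRegularLocalRing R]
    [CharP (ResidueField R) p] [PerfectRing (ResidueField R) p] {d : ℕ} {P : Ideal R}
    {hs : List R} {r : ℕ} [IsRegularLocalRing (Lam p (ResidueField R) r)]
    [Algebra (Lam p (ResidueField R) r) R] {Ω : Type u} [Field Ω]
    [Algebra (Lam p (ResidueField R) r) Ω] {F : Fin 2 → FlagMod (Lam p (ResidueField R) r) Ω hs}
    (X : Core p d P hs r Ω F)

theorem map_parL : (parL p (ResidueField R) r).map X.la = (p : WittVector p X.K.C) ::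
    List.ofFn fun l : Fin r => teichmuller p (xC p (ResidueField R) r X.K.C l.succ) := by
  rw [parL, List.map_cons, map_natCast, List.map_ofFn]
  congr 2
  funext l
  change WittVector.map _ (X.ψ (MvPowerSeries.X l)) = _
  rw [X.base.psi_u, WittVector.map_teichmuller]

/-- **RHO** -/
theorem rho_J [IsDomain (Lam p (ResidueField R) r)]
    (hN : Norm p R r hs) (hpr : Prime (p : Lam p (ResidueField R) r)) (i : Fin 2)
    (z : Fin (F i).n → ℤ) :
    (∀ j, X.K.mass.len ((KC (R := WittVector p X.K.C) (X.YJ (X.K.J (F i).n (X.pl i) z))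
      ((parL p (ResidueField R) r).map X.la)).H j) ≠ ⊤) ∧
    ∑ j ∈ Finset.range (r + 2), (-1 : ℝ) ^ j * (X.K.mass.len
      ((KC (R := WittVector p X.K.C) (X.YJ (X.K.J (F i).n (X.pl i) z))
        ((parL p (ResidueField R) r).map X.la)).H j)).toReal = X.rho := by
  let _ := algW p X.K.C
  obtain ⟨h1, h2⟩ := Pkg.kchi_J X.K X.base hN.max hpr (fun j => by
    have h3 := X.gr_le j
    refine le_trans (Nat.mul_le_mul_right _ (Nat.le_add_right _ _)) h3) X.ε_ne X.cof (X.pl i)
    (fun l => by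
      obtain ⟨t, ht⟩ := (F i).flag.exists_detT_ne_zero ((l : ℕ) + 1) l.2
      exact ⟨t, by rw [X.pl_spec i _ l.2]; exact ht⟩) z
  have h4 := fun j => X.K.len_KC_JSh (X.K.isPerf_J (F i).n (X.pl i) z) j
  rw [map_parL]
  refine ⟨fun j => by rw [h4 j]; exact h1 j, ?_⟩
  have h5 := h2 (r + 2) (by omega)
  rw [kchi, Finset.sum_range_succ] at h5
  have h6 : X.K.mass.len ((KC (R := WittVector p X.K.C) (X.K.J (F i).n (X.pl i) z)
      X.K.xs).H (r + 2)) = 0 := by
    have := KC_H_subsingleton (R := WittVector p X.K.C) (X.K.J (F i).n (X.pl i) z) X.K.xs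
      (i := r + 2) (by rw [List.length_ofFn]; omega)
    exact SL.len_subsingleton _
  rw [h6, ENNReal.toReal_zero, mul_zero, add_zero] at h5
  rw [rho, ← h5]
  exact Finset.sum_congr rfl fun j _ => by rw [h4 j]

end Core

end Vale.Agent.P177.Full
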