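import Vale.Agent.P177.Rho.KPow

/-!
P177: the Euler characteristic of an ideal `J` equals the one of the ring if the quotient is
smaller.
-/

namespace Vale.Agent.P177.Rho

open Vale.Agent.P202.Mix Vale.Agent.P177.KG Function
open scoped ENNReal

universe u

variable {B : Type u} [CommRing B] (L : AddLen B)

/-- dropping elements which kill `M`. -/
theorem KC_fin_drop (M : Type u) [AddCommGroup M] [Module B M] (ys : List B) :
    ∀ js : List B, (∀ j ∈ js, ∀ m : M, j • m = 0) →
      (∀ q, L.len ((KC M (js ++ ys)).H q) ≠ ⊤) → ∀ q, L.len ((KC M ys).H q) ≠ ⊤ := by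
  intro js
  induction js with
  | nil => exact fun _ h => h
  | cons j js ih =>
    intro hj h
    refine ih (fun j' hj' => hj j' (List.mem_cons_of_mem _ hj')) fun q => ?_
    exact ne_top_of_le_ne_top (h (q + 1)) (KC_len_drop (ALen.of L) M
      (hj j List.mem_cons_self) (js ++ ys) q)

/-- finiteness passes to a list with the same radical. -/
theorem KC_fin_rad (M : Type u) [AddCommGroup M] [Module B M] {tu zs : List B} {l : ℕ}
    (h : ∀ v ∈ tu, v ^ l ∈ Ideal.ofList zs) (hfin : ∀ q, L.len ((KC M tu).H q) ≠ ⊤) (q : ℕ) :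
    L.len ((KC M zs).H q) ≠ ⊤ := by
  have h4 := KC_growth3' (ALen.of L) M h 1 q
  rw [List.map_congr_left (g := id) (fun a _ => pow_one a), List.map_id] at h4
  refine ne_top_of_le_ne_top ?_ h4
  refine ENNReal.mul_ne_top (ENNReal.pow_ne_top (ENNReal.natCast_ne_top _)) ?_
  exact ENNReal.sum_ne_top.2 fun jq _ =>
    ENNReal.mul_ne_top (ENNReal.natCast_ne_top _) (hfin _)

/-- the vanishing of the Euler characteristic of a small module. -/
theorem kchi_small (M : Type u) [AddCommGroup M] [Module B M] (tu ys : List B) {l : ℕ}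
    (h1 : ∀ v ∈ tu, ∃ a ∈ Ideal.ofList ys, ∀ m : M, (v ^ l - a) • m = 0)
    (h2 : ∀ y ∈ ys, y ∈ Ideal.ofList tu) (hfin : ∀ q, L.len ((KC M tu).H q) ≠ ⊤)
    (hlen : ys.length < tu.length) (n : ℕ) (hn : tu.length ≤ n) :
    kchi L (KC M tu) (n + 1) = 0 := by
  choose! a ha ham using h1
  let js : List B := tu.map fun v => v ^ l - a v
  have h3 : ∀ v ∈ tu, v ^ l ∈ Ideal.ofList (js ++ ys) := by
    intro v hv
    have e : v ^ l = (v ^ l - a v) + a v := by ring
    rw [e, Ideal.ofList_append]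
    refine Ideal.add_mem _ (Submodule.mem_sup_left (Ideal.subset_span ?_))
      (Submodule.mem_sup_right (ha v hv))
    exact List.mem_map.2 ⟨v, hv, rfl⟩
  have h4 : ∀ q, L.len ((KC M (js ++ ys)).H q) ≠ ⊤ := KC_fin_rad L M h3 hfin
  have h5 : ∀ q, L.len ((KC M ys).H q) ≠ ⊤ := by
    refine KC_fin_drop L M ys js ?_ h4
    intro j hj m
    obtain ⟨v, hv, rfl⟩ := List.mem_map.1 hj
    exact ham v hv m
  set C : ℝ≥0∞ := ∑ q ∈ Finset.range (ys.length + 1), L.len ((KC M ys).H q) with hC
  have hC1 : C ≠ ⊤ := ENNReal.sum_ne_top.2 fun q _ => h5 q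
  have hC2 : ∀ q, L.len ((KC M ys).H q) ≤ C := by
    intro q
    by_cases hq : q < ys.length + 1
    · exact Finset.single_le_sum (f := fun q => L.len ((KC M ys).H q)) (fun _ _ => zero_le)
        (Finset.mem_range.2 hq)
    · have h6 : L.len ((KC M ys).H q) = 0 := KC_len_eq_zero (ALen.of L) M ys (by omega)
      rw [h6]
      exact zero_le
  refine kchi_eq_zero_of_growth L M n ys.length tu hn hlen hfin
    (((1 * (tu.length + 1)) ^ ys.length * 2 ^ tu.length : ℕ) * C)
    (ENNReal.mul_ne_top (ENNReal.natCast_ne_top _) hC1) fun t i => ?_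
  exact KC_growth3_const (ALen.of L) M (l := 1) (fun y hy => by rw [pow_one]; exact h2 y hy)
    hC2 t i

/-- the Euler characteristic of `J`. -/
theorem kchi_ideal (J : Ideal B) (tu ys : List B) {l : ℕ}
    (h1 : ∀ v ∈ tu, v ^ l ∈ Ideal.ofList ys ⊔ J) (h2 : ∀ y ∈ ys, y ∈ Ideal.ofList tu)
    (hJ : ∀ q, L.len ((KC J tu).H q) ≠ ⊤) (hB : ∀ q, L.len ((KC B tu).H q) ≠ ⊤)
    (hlen : ys.length < tu.length) (n : ℕ) (hn : tu.length < n) :
    kchi L (KC J tu) (n + 1) = kchi L (KC B tu) (n + 1) := by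
  have hex : Function.Exact J.subtype (Submodule.mkQ J) := by
    rw [LinearMap.exact_iff, Submodule.ker_mkQ, Submodule.range_subtype]
  have hs := KCses (M := J) (N := B) (K := B ⧸ J) J.injective_subtype (Submodule.mkQ_surjective J)
    hex tu
  have hM : ∀ q, L.len ((KC (B ⧸ J) tu).H q) ≠ ⊤ := by
    intro q
    cases q with
    | zero =>
      exact ne_top_of_le_ne_top (hB 0) (KC_len_right_zero (ALen.of L)
        J.injective_subtype (Submodule.mkQ_surjective J) hex tu)
    | succ q =>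
      exact ne_top_of_le_ne_top (ENNReal.add_ne_top.2 ⟨hB (q + 1), hJ q⟩)
        (KC_len_right (ALen.of L) J.injective_subtype (Submodule.mkQ_surjective J) hex tu q)
  have h3 := kchi_add L hs hJ hB n (KC_H_subsingleton _ _ hn)
  have h4 : kchi L (KC (B ⧸ J) tu) (n + 1) = 0 := by
    refine kchi_small L (B ⧸ J) tu ys (l := l) ?_ h2 hM hlen n hn.le
    intro v hv
    obtain ⟨a, ha, j, hj, haj⟩ := Submodule.mem_sup.1 (h1 v hv)
    refine ⟨a, ha, fun m => ?_⟩
    obtain ⟨m, rfl⟩ := Submodule.mkQ_surjective J m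
    rw [← map_smul, Submodule.mkQ_apply, Submodule.Quotient.mk_eq_zero, ← haj,
      add_sub_cancel_left]
    exact J.mul_mem_right _ hj
  rw [h3, h4, add_zero]

end Vale.Agent.P177.Rho
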