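import Vale.Agent.P177.Perf.KTor
import Vale.Agent.P177.SL.Len

/-!
P177: Euler characteristics of Koszul complexes for an additive length; powers of the elements.
-/

namespace Vale.Agent.P177.Rho

open Vale.Agent.P202.Mix Vale.Agent.P177.KG Function
open scoped ENNReal

universe u

variable {R : Type u} [CommRing R] (L : AddLen R)

section herbrand

variable (M : Type u) [AddCommGroup M] [Module R M]

/-- the length of `M / y M` -/
noncomputable def qq (y : R) : ℝ≥0∞ := L.rl (LinearMap.range (LinearMap.lsmul R M y)) ⊤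

/-- the length of the `y`-torsion of `M` -/
noncomputable def ss (y : R) : ℝ≥0∞ := L.len (LinearMap.ker (LinearMap.lsmul R M y))

theorem qq_one : qq L M 1 = 0 := by
  apply rl_eq_zero_of_le
  intro x _
  exact ⟨x, one_smul _ _⟩

theorem ss_one : ss L M 1 = 0 := by
  have : Subsingleton (LinearMap.ker (LinearMap.lsmul R M 1)) := by
    refine subsingleton_of_forall_eq 0 ?_
    rintro ⟨x, hx⟩
    refine Subtype.ext ?_
    have : (1 : R) • x = 0 := hx
    rwa [one_smul] at this
  exact SL.len_subsingleton L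

/-- the exact sequence of six terms -/
theorem qq_mul (y z : R) : qq L M (z * y) + ss L M z + ss L M y =
    qq L M z + qq L M y + ss L M (y * z) := by
  let fy := LinearMap.lsmul R M y
  let fz := LinearMap.lsmul R M z
  let K := LinearMap.ker fz
  -- `z y M ⊆ z M ⊆ M`
  have e1 : LinearMap.range (LinearMap.lsmul R M (z * y)) = (LinearMap.range fy).map fz := by
    ext x
    constructor
    · rintro ⟨a, rfl⟩
      exact ⟨y • a, ⟨a, rfl⟩, by
        change z • y • a = (z * y) • a
        rw [mul_smul]⟩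
    · rintro ⟨_, ⟨a, rfl⟩, rfl⟩
      exact ⟨a, by
        change (z * y) • a = z • y • a
        rw [mul_smul]⟩
  have e2 : LinearMap.range fz = (⊤ : Submodule R M).map fz := (Submodule.map_top fz).symm
  have h2 : qq L M (z * y) = L.rl (LinearMap.range fy ⊔ K) ⊤ + qq L M z := by
    change L.rl (LinearMap.range (LinearMap.lsmul R M (z * y))) ⊤ =
      L.rl (LinearMap.range fy ⊔ LinearMap.ker fz) ⊤ + L.rl (LinearMap.range fz) ⊤
    rw [e1, e2, ← rl_map L fz (LinearMap.range fy) ⊤]
    exact rl_add L (Submodule.map_mono le_top) le_top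
  -- `q_y`
  have h3 : qq L M y = L.rl (LinearMap.range fy ⊓ K) K + L.rl (LinearMap.range fy ⊔ K) ⊤ := by
    rw [rl_inf_left, ← rl_sup_right L (LinearMap.range fy) K]
    exact rl_add L le_sup_left le_top
  have h4 : ss L M z = L.len (LinearMap.range fy ⊓ K : Submodule R M) +
      L.rl (LinearMap.range fy ⊓ K) K := by
    have := rl_add L (bot_le : (⊥ : Submodule R M) ≤ LinearMap.range fy ⊓ K) inf_le_right
    rw [rl_bot, rl_bot] at this
    exact this
  have h5 : ss L M (y * z) = ss L M y + L.len (LinearMap.range fy ⊓ K : Submodule R M) := by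
    let K' := LinearMap.ker (LinearMap.lsmul R M (y * z))
    have hK : LinearMap.ker fy ≤ K' := by
      intro x hx
      have hx' : y • x = 0 := hx
      change (y * z) • x = 0
      rw [mul_comm, mul_smul, hx', smul_zero]
    have e3 : K'.map fy = LinearMap.range fy ⊓ K := by
      ext x
      constructor
      · rintro ⟨a, ha, rfl⟩
        have ha' : (y * z) • a = 0 := ha
        refine ⟨⟨a, rfl⟩, ?_⟩
        change z • y • a = 0
        rw [← mul_smul, mul_comm, ha']
      · rintro ⟨⟨a, rfl⟩, ha⟩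
        have ha' : z • y • a = 0 := ha
        refine ⟨a, ?_, rfl⟩
        change (y * z) • a = 0
        rw [mul_comm, mul_smul, ha']
    have h6 := rl_map L fy ⊥ K'
    rw [Submodule.map_bot, bot_sup_eq, rl_bot, e3] at h6
    have h7 := rl_add L (bot_le : (⊥ : Submodule R M) ≤ LinearMap.ker fy) hK
    rw [rl_bot, rl_bot, ← h6] at h7
    exact h7
  rw [h2, h3, h4, h5]
  ring

theorem qq_pow_ne_top {y : R} (h1 : qq L M y ≠ ⊤) (h2 : ss L M y ≠ ⊤) (n : ℕ) :
    qq L M (y ^ n) ≠ ⊤ ∧ ss L M (y ^ n) ≠ ⊤ ∧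
      (qq L M (y ^ n)).toReal - (ss L M (y ^ n)).toReal =
        n * ((qq L M y).toReal - (ss L M y).toReal) := by
  induction n with
  | zero =>
    rw [pow_zero, qq_one, ss_one]
    simp
  | succ n ih =>
    obtain ⟨i1, i2, i3⟩ := ih
    have h := qq_mul L M y (y ^ n)
    rw [← pow_succ, ← pow_succ'] at h
    have hs : ss L M (y ^ (n + 1)) ≠ ⊤ := by
      have h3 : ss L M (y ^ (n + 1)) ≤ ss L M y + ss L M (y ^ n) := by
        have k1 := SL.len_ker_add_range L ((LinearMap.lsmul R M y).domRestrict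
          (LinearMap.ker (LinearMap.lsmul R M (y ^ (n + 1)))))
        unfold ss
        rw [k1]
        refine add_le_add ?_ ?_
        · refine SL.len_le_of_injective L (LinearMap.codRestrict _ ((Submodule.subtype _) ∘ₗ
            (Submodule.subtype _)) fun x => ?_) ?_
          · exact x.2
          · intro a b hab
            have := congrArg Subtype.val hab
            exact Subtype.ext (Subtype.ext this)
        · refine SL.len_mono L ?_
          rintro _ ⟨⟨x, hx⟩, rfl⟩
          have hx' : y ^ (n + 1) • x = 0 := hx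
          change y ^ n • y • x = 0
          rw [← mul_smul, ← pow_succ, hx']
      exact ne_top_of_le_ne_top (ENNReal.add_ne_top.2 ⟨h2, i2⟩) h3
    have hq : qq L M (y ^ (n + 1)) ≠ ⊤ := by
      have h3 : qq L M (y ^ (n + 1)) ≤ qq L M (y ^ n) + qq L M y + ss L M (y ^ (n + 1)) := by
        rw [← h, add_assoc]
        exact le_self_add
      exact ne_top_of_le_ne_top (ENNReal.add_ne_top.2 ⟨ENNReal.add_ne_top.2 ⟨i1, h1⟩, hs⟩) h3
    refine ⟨hq, hs, ?_⟩
    have h4 := congrArg ENNReal.toReal h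
    rw [ENNReal.toReal_add (ENNReal.add_ne_top.2 ⟨hq, i2⟩) h2, ENNReal.toReal_add hq i2,
      ENNReal.toReal_add (ENNReal.add_ne_top.2 ⟨i1, h1⟩) hs, ENNReal.toReal_add i1 h1] at h4
    push_cast
    linarith

end herbrand

section cone

variable (A : Cx R)

theorem ker_incH (y : R) (i : ℕ) : LinearMap.ker (A.incH y i) =
    LinearMap.range (LinearMap.lsmul R (A.H i) y) := by
  ext z
  constructor
  · intro hz
    obtain ⟨x, hx, rfl⟩ := A.cl_surj i z
    have h1 : A.incH y i (A.cl i ⟨x, hx⟩) = 0 := hz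
    rw [Cx.incH, Cx.mapH_cl, Cx.cl_eq_zero] at h1
    have key : ∀ (b : A.X i) (hb : b ∈ A.Z i) (a : A.X (i + 1)), A.d i a + y • b = x →
        A.cl i ⟨x, hx⟩ ∈ LinearMap.range (LinearMap.lsmul R (A.H i) y) := by
      intro b hb a hab
      refine ⟨A.cl i ⟨b, hb⟩, ?_⟩
      change y • A.cl i ⟨b, hb⟩ = _
      rw [← map_smul]
      have h2 : A.cl i ⟨y • b, (A.Z i).smul_mem y hb⟩ = A.cl i ⟨x, hx⟩ := by
        rw [A.cl_eq_cl]
        refine ⟨-a, ?_⟩
        rw [map_neg, ← hab]
        abel
      exact h2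
    cases i with
    | zero =>
      obtain ⟨a, b, hab⟩ := A.mem_B_cone_zero.1 h1
      exact key b (Cx.mem_Z_zero (A := A) _) a hab
    | succ i =>
      obtain ⟨a, b, hab, hb⟩ := A.mem_B_cone.1 h1
      refine key b ?_ a hab
      rw [Cx.mem_Z_succ]
      have hb' : -(A.d i b) = 0 := hb
      exact neg_eq_zero.1 hb'
  · rintro ⟨w, rfl⟩
    rw [LinearMap.mem_ker]
    change A.incH y i (y • w) = 0
    rw [map_smul, Cx.kill_cone]

theorem range_prjH (y : R) (i : ℕ) : LinearMap.range (A.prjH y i) =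
    LinearMap.ker (LinearMap.lsmul R (A.H i) y) := by
  ext z
  constructor
  · rintro ⟨w, rfl⟩
    rw [LinearMap.mem_ker]
    change y • A.prjH y i w = 0
    rw [← map_smul, Cx.kill_cone, map_zero]
  · intro hz
    exact A.exists_prjH y i z hz

theorem len_cone_zero (y : R) : L.len ((A.cone y).H 0) = qq L (A.H 0) y := by
  have h := LinearMap.quotKerEquivOfSurjective (A.incH y 0) (A.incH_zero_surjective y)
  rw [← len_congr L h, qq, rl_top, ker_incH]

theorem len_cone_succ (y : R) (i : ℕ) : L.len ((A.cone y).H (i + 1)) =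
    qq L (A.H (i + 1)) y + ss L (A.H i) y := by
  rw [SL.len_eq_of_exact L _ _ (A.exact_incH_prjH y i), range_prjH, qq, rl_top, ss]
  congr 1
  rw [← len_congr L (A.incH y (i + 1)).quotKerEquivRange, ker_incH]

/-- the Euler characteristic in degrees `< n` -/
noncomputable def kchi (A : Cx R) (n : ℕ) : ℝ :=
  ∑ i ∈ Finset.range n, (-1 : ℝ) ^ i * (L.len (A.H i)).toReal

theorem cone_fin {y : R} (h : ∀ i, L.len ((A.cone y).H i) ≠ ⊤) :
    (∀ i, qq L (A.H i) y ≠ ⊤) ∧ ∀ i, ss L (A.H i) y ≠ ⊤ := by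
  refine ⟨fun i => ?_, fun i => ?_⟩
  · cases i with
    | zero => rw [← len_cone_zero]; exact h 0
    | succ i =>
      have := h (i + 1)
      rw [len_cone_succ] at this
      exact (ENNReal.add_ne_top.1 this).1
  · have := h (i + 1)
    rw [len_cone_succ] at this
    exact (ENNReal.add_ne_top.1 this).2

theorem kchi_cone {y : R} (h : ∀ i, L.len ((A.cone y).H i) ≠ ⊤) (n : ℕ) :
    kchi L (A.cone y) (n + 1) = ∑ i ∈ Finset.range n, (-1 : ℝ) ^ i *
      ((qq L (A.H i) y).toReal - (ss L (A.H i) y).toReal) +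
      (-1 : ℝ) ^ n * (qq L (A.H n) y).toReal := by
  obtain ⟨h1, h2⟩ := cone_fin L A h
  induction n with
  | zero =>
    rw [kchi, Finset.sum_range_one, len_cone_zero]
    simp
  | succ n ih =>
    rw [kchi, Finset.sum_range_succ, ← kchi, ih, Finset.sum_range_succ, len_cone_succ,
      ENNReal.toReal_add (h1 _) (h2 _), pow_succ]
    ring

/-- powers of the first element -/
theorem kchi_cone_pow {y : R} (h : ∀ i, L.len ((A.cone y).H i) ≠ ⊤) (m : ℕ) (n : ℕ)
    (hn : ∀ i, n ≤ i → Subsingleton (A.H i)) :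
    (∀ i, L.len ((A.cone (y ^ m)).H i) ≠ ⊤) ∧
      kchi L (A.cone (y ^ m)) (n + 1) = m * kchi L (A.cone y) (n + 1) := by
  obtain ⟨h1, h2⟩ := cone_fin L A h
  have h3 := fun i => qq_pow_ne_top L (A.H i) (h1 i) (h2 i) m
  have h4 : ∀ i, L.len ((A.cone (y ^ m)).H i) ≠ ⊤ := by
    intro i
    cases i with
    | zero => rw [len_cone_zero]; exact (h3 0).1
    | succ i => rw [len_cone_succ]; exact ENNReal.add_ne_top.2 ⟨(h3 _).1, (h3 _).2.1⟩
  refine ⟨h4, ?_⟩
  have h5 : ∀ z : R, qq L (A.H n) z = 0 := by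
    intro z
    have := hn n le_rfl
    rw [qq, rl_top]
    have : Subsingleton (A.H n ⧸ LinearMap.range (LinearMap.lsmul R (A.H n) z)) :=
      (Submodule.mkQ_surjective _).subsingleton
    exact SL.len_subsingleton L
  rw [kchi_cone L A h4, kchi_cone L A h, h5, h5, mul_add, Finset.mul_sum]
  congr 1
  · refine Finset.sum_congr rfl fun i _ => ?_
    rw [(h3 i).2.2]
    ring
  · simp

end cone

end Vale.Agent.P177.Rho
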