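import Vale.Agent.P177.Rho.KChi
import Vale.Agent.P177.SL.IndC

/-!
P177: Euler characteristics of Koszul complexes: additivity, powers, vanishing.
-/

namespace Vale.Agent.P177.Rho

open Vale.Agent.P202.Mix Vale.Agent.P177.KG Function
open scoped ENNReal

universe u

variable {R : Type u} [CommRing R] (L : AddLen R)

theorem kchi_congr {A B : Cx R} (h : ∀ i, L.len (A.H i) = L.len (B.H i)) (n : ℕ) :
    kchi L A n = kchi L B n := Finset.sum_congr rfl fun i _ => by rw [h]

/-- additivity in short exact sequences of complexes -/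
theorem kchi_add {A B D : Cx R} {f : Cx.Hom A B} {g : Cx.Hom B D} (h : Cx.SES f g)
    (hA : ∀ i, L.len (A.H i) ≠ ⊤) (hB : ∀ i, L.len (B.H i) ≠ ⊤)
    (n : ℕ) (hn : Subsingleton (A.H n)) :
    kchi L B (n + 1) = kchi L A (n + 1) + kchi L D (n + 1) := by
  let a : ℕ → ℝ≥0∞ := fun i => L.len (LinearMap.range (f.H i))
  let b : ℕ → ℝ≥0∞ := fun i => L.len (LinearMap.range (g.H i))
  let c : ℕ → ℝ≥0∞ := fun i => L.len (LinearMap.range (h.delta i))
  have h1 : ∀ i, L.len (A.H i) = c i + a i := fun i => SL.len_eq_of_exact L _ _ (h.exact₁ i)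
  have h2 : ∀ i, L.len (B.H i) = a i + b i := fun i => SL.len_eq_of_exact L _ _ (h.exact₂ i)
  have h3 : ∀ i, L.len (D.H (i + 1)) = b (i + 1) + c i := fun i =>
    SL.len_eq_of_exact L _ _ (h.exact₃ i)
  have h4 : L.len (D.H 0) = b 0 := by
    change _ = L.len (LinearMap.range (g.H 0))
    rw [LinearMap.range_eq_top.2 h.surj_zero]
    exact (len_congr L (Submodule.topEquiv (R := R) (M := D.H 0))).symm
  have ha : ∀ i, a i ≠ ⊤ := fun i => by
    have := hA i; rw [h1] at this; exact (ENNReal.add_ne_top.1 this).2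
  have hc : ∀ i, c i ≠ ⊤ := fun i => by
    have := hA i; rw [h1] at this; exact (ENNReal.add_ne_top.1 this).1
  have hb : ∀ i, b i ≠ ⊤ := fun i => by
    have := hB i; rw [h2] at this; exact (ENNReal.add_ne_top.1 this).2
  have hcn : c n = 0 := by
    have h5 : L.len (A.H n) = 0 := SL.len_subsingleton L
    rw [h1] at h5
    exact (add_eq_zero.1 h5).1
  have key : ∀ n, kchi L B (n + 1) = kchi L A (n + 1) + kchi L D (n + 1) -
      (-1 : ℝ) ^ n * (c n).toReal := by
    intro n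
    induction n with
    | zero =>
      rw [kchi, kchi, kchi, Finset.sum_range_one, Finset.sum_range_one, Finset.sum_range_one,
        h1, h2, h4, ENNReal.toReal_add (ha 0) (hb 0), ENNReal.toReal_add (hc 0) (ha 0)]
      ring
    | succ n ih =>
      have hs : ∀ X : Cx R, kchi L X (n + 1 + 1) = kchi L X (n + 1) +
          (-1 : ℝ) ^ (n + 1) * (L.len (X.H (n + 1))).toReal := fun X => by
        rw [kchi, Finset.sum_range_succ, ← kchi]
      rw [hs A, hs B, hs D, ih, h1 (n + 1), h2, h3, ENNReal.toReal_add (ha _) (hb _),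
        ENNReal.toReal_add (hc _) (ha _), ENNReal.toReal_add (hb _) (hc _), pow_succ]
      ring
  rw [key, hcn]
  simp

variable (M : Type u) [AddCommGroup M] [Module R M]

theorem len_perm' {xs ys : List R} (h : xs.Perm ys) (i : ℕ) :
    L.len ((KC M xs).H i) = L.len ((KC M ys).H i) := KC_len_perm (ALen.of L) M h i

/-- powers of a part of the list -/
theorem kchi_append_pow (m n : ℕ) (l1 : List R) : ∀ (l2 : List R) (_ : (l1 ++ l2).length ≤ n)
    (_ : ∀ i, L.len ((KC M (l1 ++ l2)).H i) ≠ ⊤),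
    (∀ i, L.len ((KC M (l1.map (· ^ m) ++ l2)).H i) ≠ ⊤) ∧
      kchi L (KC M (l1.map (· ^ m) ++ l2)) (n + 1) =
        (m : ℝ) ^ l1.length * kchi L (KC M (l1 ++ l2)) (n + 1) := by
  induction l1 with
  | nil =>
    intro l2 _ h
    exact ⟨h, by simp⟩
  | cons x l ih =>
    intro l2 hn h
    have hp : (x :: l ++ l2).Perm (l ++ x :: l2) := (List.perm_middle (a := x) (l₁ := l)
      (l₂ := l2)).symm
    have hn' : (l ++ x :: l2).length ≤ n := by
      rw [← hp.length_eq]
      exact hn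
    obtain ⟨h1, h2⟩ := ih (x :: l2) hn' fun i => by
      rw [← len_perm' L M hp]
      exact h i
    have hp' : (x :: (l.map (· ^ m) ++ l2)).Perm (l.map (· ^ m) ++ x :: l2) :=
      (List.perm_middle (a := x) (l₁ := l.map (· ^ m)) (l₂ := l2)).symm
    have h3 : ∀ i, L.len (((KC M (l.map (· ^ m) ++ l2)).cone x).H i) ≠ ⊤ := fun i => by
      change L.len ((KC M (x :: (l.map (· ^ m) ++ l2))).H i) ≠ ⊤
      rw [len_perm' L M hp']
      exact h1 i
    obtain ⟨h4, h5⟩ := kchi_cone_pow L (KC M (l.map (· ^ m) ++ l2)) h3 m n fun i hi => by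
      refine KC_H_subsingleton M _ (lt_of_lt_of_le ?_ hi)
      simp only [List.length_append, List.length_cons, List.length_map] at hn ⊢
      omega
    refine ⟨h4, ?_⟩
    change kchi L ((KC M (l.map (· ^ m) ++ l2)).cone (x ^ m)) (n + 1) = _
    rw [h5]
    have e1 : kchi L ((KC M (l.map (· ^ m) ++ l2)).cone x) (n + 1) =
        kchi L (KC M (l.map (· ^ m) ++ x :: l2)) (n + 1) :=
      kchi_congr L (A := KC M (x :: (l.map (· ^ m) ++ l2))) (len_perm' L M hp') _
    have e2 : kchi L (KC M (l ++ x :: l2)) (n + 1) = kchi L (KC M (x :: l ++ l2)) (n + 1) :=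
      kchi_congr L (fun i => (len_perm' L M hp i).symm) _
    rw [e1, h2, e2, List.length_cons, pow_succ]
    ring

theorem kchi_map_pow (m n : ℕ) (xs : List R) (hn : xs.length ≤ n)
    (h : ∀ i, L.len ((KC M xs).H i) ≠ ⊤) :
    kchi L (KC M (xs.map (· ^ m))) (n + 1) =
        (m : ℝ) ^ xs.length * kchi L (KC M xs) (n + 1) := by
  have := (kchi_append_pow L M m n xs [] (by rwa [List.append_nil])
    (by rwa [List.append_nil])).2
  rwa [List.append_nil, List.append_nil] at this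

theorem abs_kchi_le (A : Cx R) (n : ℕ) :
    |kchi L A n| ≤ ∑ i ∈ Finset.range n, (L.len (A.H i)).toReal := by
  refine (Finset.abs_sum_le_sum_abs _ _).trans (Finset.sum_le_sum fun i _ => ?_)
  rw [abs_mul, abs_pow, abs_neg, abs_one, one_pow, one_mul, abs_of_nonneg ENNReal.toReal_nonneg]

/-- slow growth forces the Euler characteristic to vanish -/
theorem kchi_eq_zero_of_growth (n r : ℕ) (xs : List R) (hn : xs.length ≤ n)
    (hr : r < xs.length) (h : ∀ i, L.len ((KC M xs).H i) ≠ ⊤) (c : ℝ≥0∞) (hc : c ≠ ⊤)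
    (hg : ∀ t i : ℕ, L.len ((KC M (xs.map (· ^ t))).H i) ≤ c * ((t + 1 : ℕ) : ℝ≥0∞) ^ r) :
    kchi L (KC M xs) (n + 1) = 0 := by
  by_contra hne
  set κ := |kchi L (KC M xs) (n + 1)| with hκ
  have hκ0 : 0 < κ := abs_pos.2 hne
  have h1 : ∀ t : ℕ, (t : ℝ) ^ xs.length * κ ≤ (n + 1) * (c.toReal * ((t : ℝ) + 1) ^ r) := by
    intro t
    have h2 := kchi_map_pow L M t n xs hn h
    have h3 := abs_kchi_le L (KC M (xs.map (· ^ t))) (n + 1)
    rw [h2, abs_mul, abs_of_nonneg (by positivity : (0 : ℝ) ≤ (t : ℝ) ^ xs.length), ← hκ] at h3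
    refine h3.trans ?_
    have h4 : ∀ i ∈ Finset.range (n + 1), (L.len ((KC M (xs.map (· ^ t))).H i)).toReal ≤
        c.toReal * ((t : ℝ) + 1) ^ r := by
      intro i _
      have h5 := ENNReal.toReal_mono (ENNReal.mul_ne_top hc (ENNReal.pow_ne_top
        (ENNReal.natCast_ne_top _))) (hg t i)
      rw [ENNReal.toReal_mul, ENNReal.toReal_pow, ENNReal.toReal_natCast] at h5
      push_cast at h5
      exact h5
    refine (Finset.sum_le_sum h4).trans ?_
    rw [Finset.sum_const, Finset.card_range, nsmul_eq_mul]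
    push_cast
    exact le_rfl
  -- choose `t` large
  obtain ⟨t, ht⟩ := exists_nat_gt ((n + 1) * (c.toReal * 2 ^ r) / κ)
  have ht1 : (1 : ℝ) ≤ (t : ℝ) + 1 := by linarith [Nat.cast_nonneg (α := ℝ) t]
  have h2 := h1 (t + 1)
  push_cast at h2
  have h3 : ((t : ℝ) + 1 + 1) ^ r ≤ (2 * ((t : ℝ) + 1)) ^ r := by
    apply pow_le_pow_left₀ (by positivity)
    linarith
  have h4 : ((t : ℝ) + 1) ^ r * ((t : ℝ) + 1) ≤ ((t : ℝ) + 1) ^ xs.length := by
    rw [← pow_succ]
    exact pow_le_pow_right₀ ht1 hr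
  have h5 : (n + 1) * (c.toReal * 2 ^ r) < ((t : ℝ) + 1) * κ := by
    rw [div_lt_iff₀ hκ0] at ht
    nlinarith
  have h6 : ((t : ℝ) + 1) ^ r * ((t : ℝ) + 1) * κ ≤
      (n + 1) * (c.toReal * (2 * ((t : ℝ) + 1)) ^ r) := by
    calc _ ≤ ((t : ℝ) + 1) ^ xs.length * κ := by gcongr
      _ ≤ _ := h2
      _ ≤ _ := by gcongr
  rw [mul_pow] at h6
  have h7 : 0 < ((t : ℝ) + 1) ^ r := by positivity
  have h8 : ((t : ℝ) + 1) ^ r * (((t : ℝ) + 1) * κ) ≤
      ((t : ℝ) + 1) ^ r * ((n + 1) * (c.toReal * 2 ^ r)) := by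
    calc _ = ((t : ℝ) + 1) ^ r * ((t : ℝ) + 1) * κ := by ring
      _ ≤ _ := h6
      _ = _ := by ring
  exact absurd (le_of_mul_le_mul_left h8 h7) (not_le.2 h5)

end Vale.Agent.P177.Rho
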