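import Vale.Agent.P177.Rho.Cut
import Vale.Agent.P177.Nat.Cut
import Vale.Agent.P177.Nat.NatZ
import Vale.Agent.P177.Nat.MassW
import Vale.Agent.P177.KM.KW
import Vale.Agent.P177.Nat.NatW

/-!
P177: the Euler characteristic of `J` over a perfect ring `C`, through the ring `C'`.
-/

namespace Vale.Agent.P177.Rho

open Vale.Agent.P202.Mix Vale.Agent.P177.KG Vale.Agent.P177.KM Vale.Agent.P177.PI
  Vale.Agent.P177.CN Vale.Agent.P177.MN Function WittVector IsLocalRing
open scoped ENNReal

universe u

/-- an additive length as an `AddLen` -/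
noncomputable def ofA {R : Type u} [CommRing R] (L : ALen R) : AddLen R := ⟨L.len, L.zero, L.add⟩

variable {p : ℕ} [hp : Fact p.Prime]

section

theorem map_XI {C : Type u} [CommRing C] {C' : Type u} [CommRing C'] (f : C →+* C') (t : C) (M : ℕ) {x : WittVector p C}
    (h : x ∈ XI p t M) : WittVector.map f x ∈ XI p (f t) M := by
  obtain ⟨y, y', rfl⟩ := (mem_XI p).1 h
  refine (mem_XI p).2 ⟨WittVector.map f y, WittVector.map f y', ?_⟩
  rw [map_add, map_mul, map_mul, map_sub, map_pow, map_natCast, WittVector.map_teichmuller]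

/-- **The Euler characteristic of `J`** (there is an exponent `a` depending only on `γ`). -/
theorem kchi_nat {Λ : Type u} [CommRing Λ] [IsDomain Λ] [IsLocalRing Λ] [IsNoetherianRing Λ]
    {r : ℕ} (u : Fin r → Λ) (hmax : maximalIdeal Λ = Ideal.span (insert (p : Λ) (Set.range u)))
    (hpr : Prime (p : Λ)) (γ : Λ) (hγ : γ ≠ 0) :
    ∃ a : ℕ, ∀ {C : Type u} [CommRing C] [CharP C p] [PerfectRing C p]
      (ψ : Λ →+* WittVector p C) (x : Fin (r + 1) → C)
      (_ : ∀ i, ψ (u i) = teichmuller p (x (Fin.succ i))) (_ : x 0 ∈ nonZeroDivisors C) (η : C)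
      (_ : NatZ p C (x 0) η) (L : AddLen (WittVector p C))
      (_ : ∀ (M : Type u) [AddCommGroup M] [Module (WittVector p C) M],
        (∀ m : M, teichmuller p η • m = 0) → L.len M = 0)
      (M : ℕ) (_ : 1 + a < M) (J : Ideal C) (_ : SP p J) (z : WittVector p C)
      (_ : z ∈ WI p J) (_ : teichmuller p η * ψ γ - z ∈ XI p (x 0) M)
      (_ : letI := algW p C
        ∀ i, L.len ((KC (R := WittVector p C) J (List.ofFn fun l => teichmuller p (x l))).H i) ≠ ⊤)
      (_ : letI := algW p C
        ∀ i, L.len ((KC (R := WittVector p C) C (List.ofFn fun l => teichmuller p (x l))).H i) ≠ ⊤)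
      (n : ℕ) (_ : r + 1 < n),
      letI := algW p C
      kchi L (KC (R := WittVector p C) J (List.ofFn fun l => teichmuller p (x l))) (n + 1) =
        kchi L (KC (R := WittVector p C) C (List.ofFn fun l => teichmuller p (x l))) (n + 1) := by
  obtain ⟨a, ha⟩ := NatC.exists_cut (p := p) u hmax hpr γ hγ
  refine ⟨a, ?_⟩
  intro C _ _ _ ψ x hx ht η Z L hL M hM J hJ z hz hzz hfJ hfC n hn
  let _ := algW p C
  -- the cut over `C'`
  obtain ⟨y, hy, l, hl⟩ := ha ((WittVector.map Z.f).comp ψ) (fun i => Z.f (x i.succ)) (fun i => by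
      rw [RingHom.comp_apply, hx, WittVector.map_teichmuller]) (Z.f (x 0)) Z.reg Z.jac (Z.f η)
      Z.dvd 1 M hM (J.map Z.f) (hJ.map Z.f).isPerf (WittVector.map Z.f z)
      (NatC.map_mem_WI p Z.f hJ.isPerf (fun c hc => Ideal.mem_map_of_mem _ hc) hz) (by
        have h1 := map_XI Z.f (x 0) M hzz
        rw [map_sub, map_mul, WittVector.map_teichmuller] at h1
        rw [pow_one]
        exact h1)
  let B := Z.C'
  let _ : Algebra (WittVector p C) B := (Z.f.comp (WittVector.constantCoeff)).toAlgebra
  let f' : C →ₐ[WittVector p C] B := { Z.f with commutes' := fun _ => rfl }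
  have hte : ∀ c : C, algebraMap (WittVector p C) C (teichmuller p c) = c :=
    fun c => teichmuller_coeff_zero p c
  have hte' : ∀ c : C, algebraMap (WittVector p C) B (teichmuller p c) = Z.f c := fun c => by
    change Z.f (constantCoeff (teichmuller p c)) = _
    congr 1
  let xs : List (WittVector p C) := List.ofFn fun l => teichmuller p (x l)
  have hxs : xs = teichmuller p (x 0) :: List.ofFn fun i : Fin r => teichmuller p (x i.succ) :=
    List.ofFn_succ
  let LB : AddLen B := ofA ((ALen.of L).res B)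
  let xB : List B := List.ofFn fun l => algebraMap (WittVector p C) B (teichmuller p (x l))
  -- transfer to `C'`
  have key : ∀ (I : Ideal C) (_ : SP p I) (i : ℕ), L.len ((KC (R := WittVector p C) I xs).H i) =
      L.len ((KC (R := WittVector p C) (I.map Z.f) xs).H i) := by
    intro I hI i
    rw [hxs]
    refine KC_len_J_eq (ALen.of L) (η := teichmuller p η) hL f' (teichmuller p (x 0)) I
      (I.map Z.f) (fun c hc => Ideal.mem_map_of_mem _ hc) ?_ ?_ ?_ ?_ _ i
    · intro c _ h
      rw [hte] at h
      exact (mem_nonZeroDivisors_iff_left.1 ht) c h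
    · intro c _ h
      rw [hte'] at h
      exact (mem_nonZeroDivisors_iff_left.1 Z.reg) c h
    · intro y hy
      obtain ⟨c, hc, w, hw, h⟩ := Z.n1 I y hy
      refine ⟨c, hc, w, hw, ?_⟩
      rw [hte', hte']
      exact h
    · intro c hc w hw h
      rw [hte'] at h
      obtain ⟨d, hd, h1⟩ := Z.n2 I hI c hc ⟨w, hw, h⟩
      refine ⟨d, hd, ?_⟩
      rw [hte, hte]
      exact h1
  have hres : ∀ (V : Type u) [AddCommGroup V] [Module (WittVector p C) V] [Module B V]
      [IsScalarTower (WittVector p C) B V] (i : ℕ), LB.len ((KC (R := B) V xB).H i) =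
        L.len ((KC (R := WittVector p C) V xs).H i) := fun V _ _ _ _ i =>
    KC_len_res (C := B) (V := V) (ALen.of L) (fun l => teichmuller p (x l)) i
  have hJB : ∀ i, L.len ((KC (R := WittVector p C) J xs).H i) =
      LB.len ((KC (R := B) (J.map Z.f) xB).H i) := fun i => by
    rw [key J hJ i, hres]
  have hCB : ∀ i, L.len ((KC (R := WittVector p C) C xs).H i) =
      LB.len ((KC (R := B) B xB).H i) := by
    intro i
    have h1 := key ⊤ (SP_top p) i
    rw [Ideal.map_top] at h1
    have h2 : L.len ((KC (R := WittVector p C) (⊤ : Ideal C) xs).H i) =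
        L.len ((KC (R := WittVector p C) C xs).H i) :=
      KC_len_congr (ALen.of L) ((Submodule.topEquiv (R := C) (M := C)).restrictScalars
        (WittVector p C)) xs i
    have h3 : L.len ((KC (R := WittVector p C) (⊤ : Ideal B) xs).H i) =
        L.len ((KC (R := WittVector p C) B xs).H i) :=
      KC_len_congr (ALen.of L) ((Submodule.topEquiv (R := B) (M := B)).restrictScalars
        (WittVector p C)) xs i
    rw [← h2, h1, h3, hres]
  have hlenB : xB.length = r + 1 := List.length_ofFn
  have hxB : ∀ v ∈ xB, v ∈ Ideal.span (insert (Z.f (x 0)) (Set.range fun i : Fin r =>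
      Z.f (x i.succ))) := by
    intro v hv
    obtain ⟨j, rfl⟩ := (List.mem_ofFn' _ _).1 hv
    change algebraMap (WittVector p C) B (teichmuller p (x j)) ∈ _
    rw [hte']
    refine Fin.cases ?_ (fun j => ?_) j
    · exact Ideal.subset_span (Set.mem_insert _ _)
    · exact Ideal.subset_span (Set.mem_insert_of_mem _ ⟨j, rfl⟩)
  have hspan : Ideal.span (insert (Z.f (x 0)) (Set.range fun i : Fin r => Z.f (x i.succ))) ≤
      Ideal.ofList xB := by
    rw [Ideal.span_le, Set.insert_subset_iff]
    refine ⟨Ideal.subset_span ((List.mem_ofFn' _ _).2 ⟨0, hte' _⟩), ?_⟩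
    rintro _ ⟨i, rfl⟩
    exact Ideal.subset_span ((List.mem_ofFn' _ _).2 ⟨i.succ, hte' _⟩)
  have main := kchi_ideal LB (J.map Z.f) xB (List.ofFn y) (l := l) (fun v hv => by
      have h1 := hl (Ideal.pow_mem_pow (hxB v hv) l)
      have h2 : Ideal.span (Set.range y) = Ideal.ofList (List.ofFn y) := by
        rw [Ideal.ofList]
        congr 1
        ext v
        exact (List.mem_ofFn' _ _).symm
      rwa [h2] at h1) (fun w hw => by
      obtain ⟨j, rfl⟩ := (List.mem_ofFn' _ _).1 hw
      exact hspan (hy j)) (fun q => by rw [← hJB]; exact hfJ q)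
    (fun q => by rw [← hCB]; exact hfC q) (by rw [hlenB, List.length_ofFn]; omega) n
    (by rw [hlenB]; exact hn)
  have e1 : kchi L (KC (R := WittVector p C) J xs) (n + 1) =
      kchi LB (KC (R := B) (J.map Z.f) xB) (n + 1) :=
    Finset.sum_congr rfl fun i _ => by rw [hJB]
  have e2 : kchi L (KC (R := WittVector p C) C xs) (n + 1) =
      kchi LB (KC (R := B) B xB) (n + 1) :=
    Finset.sum_congr rfl fun i _ => by rw [hCB]
  change kchi L (KC (R := WittVector p C) J xs) (n + 1) =
    kchi L (KC (R := WittVector p C) C xs) (n + 1)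
  rw [e1, e2, main]

end

end Vale.Agent.P177.Rho
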